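import Mathlib

/-!
P272, stage 3, step A (helper825): the quotient of a positive semidefinite Hermitian form on a
complex vector space, restricted to a finite dimensional space of representatives, is given by a
positive semidefinite matrix.
-/

set_option linter.all false

open Matrix Complex
open scoped ComplexOrder

namespace Vale.Agent.P272.S3A

variable {m : Type*} [Fintype m] [DecidableEq m]

theorem quot_form {V : Type*} [SeminormedAddCommGroup V] [InnerProductSpace ℂ V]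
    (N : Submodule ℂ V) (s : (m → ℂ) →ₗ[ℂ] V) :
    ∃ Q : Matrix m m ℂ, Q.PosSemidef ∧
      (∀ ξ, ∀ v ∈ N, (star ξ ⬝ᵥ Q *ᵥ ξ).re ≤ ‖s ξ + v‖ ^ 2) ∧
      ∀ ξ, ∀ ε : ℝ, 0 < ε → ∃ v ∈ N, ‖s ξ + v‖ ^ 2 ≤ (star ξ ⬝ᵥ Q *ᵥ ξ).re + ε := by
  let ι : V →ₗᵢ[ℂ] UniformSpace.Completion V := UniformSpace.Completion.toComplₗᵢ
  let K : Submodule ℂ (UniformSpace.Completion V) := (N.map ι.toLinearMap).topologicalClosure
  have hKc : CompleteSpace K := (Submodule.isClosed_topologicalClosure _).completeSpace_coe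
  let L : (m → ℂ) →ₗ[ℂ] UniformSpace.Completion V :=
    (LinearMap.id - K.starProjection.toLinearMap) ∘ₗ ι.toLinearMap ∘ₗ s
  have hL : ∀ ξ, L ξ = ι (s ξ) - K.starProjection (ι (s ξ)) := fun ξ => rfl
  have hLK : ∀ ξ, L ξ ∈ Kᗮ := fun ξ => by
    rw [hL]
    exact Submodule.sub_starProjection_mem_orthogonal _
  have hsum : ∀ ξ : m → ℂ, ∑ i, ξ i • L (Pi.single i 1) = L ξ := by
    intro ξ
    have e : ξ = ∑ i, ξ i • (Pi.single i (1 : ℂ) : m → ℂ) := by
      ext j
      simp [Finset.sum_apply, Pi.single_apply]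
    conv_rhs => rw [e, map_sum]
    exact Finset.sum_congr rfl fun i _ => (L.map_smul _ _).symm
  have hform : ∀ ξ : m → ℂ, (star ξ ⬝ᵥ (gram ℂ fun i => L (Pi.single i 1)) *ᵥ ξ).re = ‖L ξ‖ ^ 2 := by
    intro ξ
    rw [star_dotProduct_gram_mulVec, hsum, inner_self_eq_norm_sq_to_K]
    norm_cast
  refine ⟨gram ℂ fun i => L (Pi.single i 1), posSemidef_gram ℂ _, ?_, ?_⟩
  · intro ξ v hv
    rw [hform]
    have hvK : ι v ∈ K := Submodule.le_topologicalClosure _ ⟨v, hv, rfl⟩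
    have hk : K.starProjection (ι (s ξ)) + ι v ∈ K :=
      K.add_mem (Submodule.starProjection_apply_mem _ _) hvK
    have e : ‖s ξ + v‖ = ‖L ξ + (K.starProjection (ι (s ξ)) + ι v)‖ := by
      rw [hL, ← ι.norm_map (s ξ + v), map_add]
      congr 1
      abel
    rw [e, sq, sq, norm_add_sq_eq_norm_sq_add_norm_sq_of_inner_eq_zero _ _
      ((Submodule.mem_orthogonal' K _).1 (hLK ξ) _ hk)]
    nlinarith [mul_self_nonneg ‖K.starProjection (ι (s ξ)) + ι v‖]
  · intro ξ ε hε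
    rw [hform]
    have hmem : K.starProjection (ι (s ξ)) ∈ closure ((N.map ι.toLinearMap : Submodule ℂ _) :
        Set (UniformSpace.Completion V)) := by
      rw [← Submodule.topologicalClosure_coe]
      exact Submodule.starProjection_apply_mem K _
    have hopen : IsOpen {h : UniformSpace.Completion V | ‖ι (s ξ) - h‖ ^ 2 < ‖L ξ‖ ^ 2 + ε} :=
      isOpen_lt (by fun_prop) continuous_const
    obtain ⟨h, hh1, ⟨v, hv, rfl⟩⟩ := mem_closure_iff.1 hmem _ hopen (by
      show ‖ι (s ξ) - K.starProjection (ι (s ξ))‖ ^ 2 < ‖L ξ‖ ^ 2 + ε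
      rw [← hL]
      linarith)
    refine ⟨-v, N.neg_mem hv, ?_⟩
    have e : ‖s ξ + -v‖ = ‖ι (s ξ) - ι v‖ := by
      rw [← map_sub, ι.norm_map, sub_eq_add_neg]
    rw [e]
    exact le_of_lt hh1

end Vale.Agent.P272.S3A
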