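import Vale.Agent.P272.H696.Szego2
import Vale.Agent.P272.S3A.Quot

/-!
P272, stage 3, step A (helper825): a Hermitian form which dominates another one is bounded by the
quotient of the determinants times the smaller form.
-/

set_option linter.all false

open Matrix Complex
open scoped ComplexOrder MatrixOrder

namespace Vale.Agent.P272.S3A

open Vale.P272.H696

variable {m : Type*} [Fintype m] [DecidableEq m]

/-- `1 ≤ A` implies `A ≤ det A` -/
theorem le_det {A : Matrix m m ℂ} (hA : A.IsHermitian) (h1 : (A - 1).PosSemidef) (η : m → ℂ) :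
    (star η ⬝ᵥ A *ᵥ η).re ≤ A.det.re * (star η ⬝ᵥ η).re := by
  have heig : ∀ i, 1 ≤ hA.eigenvalues i := by
    intro i
    have h2 := h1.dotProduct_mulVec_nonneg (⇑(hA.eigenvectorBasis i))
    have h3 : (A - 1) *ᵥ ⇑(hA.eigenvectorBasis i) =
        ((hA.eigenvalues i - 1 : ℝ) : ℂ) • (⇑(hA.eigenvectorBasis i) : m → ℂ) := by
      rw [Matrix.sub_mulVec, hA.mulVec_eigenvectorBasis, Matrix.one_mulVec]
      ext j
      simp
      ring
    have h4 : star (⇑(hA.eigenvectorBasis i) : m → ℂ) ⬝ᵥ (⇑(hA.eigenvectorBasis i) : m → ℂ) = 1 := by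
      rw [dotProduct_comm, ← EuclideanSpace.inner_eq_star_dotProduct, inner_self_eq_norm_sq_to_K,
        hA.eigenvectorBasis.orthonormal.1 i]
      simp
    rw [h3, dotProduct_smul, h4, smul_eq_mul, mul_one] at h2
    have h5 : (0 : ℝ) ≤ hA.eigenvalues i - 1 := by exact_mod_cast h2
    linarith
  have hdet : A.det.re = ∏ i, hA.eigenvalues i := by
    rw [hA.det_eq_prod_eigenvalues]
    norm_cast
  have hle : ∀ i, hA.eigenvalues i ≤ A.det.re := by
    intro i
    rw [hdet, ← Finset.mul_prod_erase _ _ (Finset.mem_univ i)]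
    have h6 : 1 ≤ ∏ j ∈ Finset.univ.erase i, hA.eigenvalues j := by
      have := Finset.prod_le_prod (s := Finset.univ.erase i) (f := fun _ => (1 : ℝ))
        (fun _ _ => zero_le_one) (fun j _ => heig j)
      simpa using this
    nlinarith [heig i]
  -- `det A - A` is positive semidefinite
  set U : Matrix m m ℂ := (hA.eigenvectorUnitary : Matrix m m ℂ) with hU
  have hUU : U * star U = 1 := Unitary.coe_mul_star_self hA.eigenvectorUnitary
  have hsp : A = U * diagonal (RCLike.ofReal ∘ hA.eigenvalues) * star U := by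
    conv_lhs => rw [hA.spectral_theorem, Unitary.conjStarAlgAut_apply]
  have hD : (diagonal fun i => ((A.det.re - hA.eigenvalues i : ℝ) : ℂ)).PosSemidef := by
    rw [posSemidef_diagonal_iff]
    intro i
    exact_mod_cast sub_nonneg.2 (hle i)
  have hP := hD.mul_mul_conjTranspose_same U
  have he : U * (diagonal fun i => ((A.det.re - hA.eigenvalues i : ℝ) : ℂ)) * Uᴴ =
      (A.det.re : ℂ) • 1 - A := by
    have e1 : (diagonal fun i => ((A.det.re - hA.eigenvalues i : ℝ) : ℂ)) =
        (A.det.re : ℂ) • (1 : Matrix m m ℂ) - diagonal (RCLike.ofReal ∘ hA.eigenvalues) := by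
      ext i j
      by_cases hij : i = j
      · subst hij
        simp
      · simp [hij]
    rw [e1, Matrix.mul_sub, Matrix.sub_mul, ← star_eq_conjTranspose, ← hsp]
    congr 1
    rw [Matrix.mul_smul, Matrix.mul_one, Matrix.smul_mul, hUU]
  rw [he] at hP
  have h7 := hP.dotProduct_mulVec_nonneg η
  rw [Matrix.sub_mulVec, Matrix.smul_mulVec, Matrix.one_mulVec, dotProduct_sub, dotProduct_smul,
    Complex.le_def] at h7
  have h8 := h7.1
  simp only [Complex.zero_re, Complex.sub_re, smul_eq_mul, Complex.re_ofReal_mul] at h8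
  linarith

/-- `W ≤ Q` implies `Q ≤ (det Q / det W) W` -/
theorem form_le {Q W : Matrix m m ℂ} (hW : W.PosDef) (hQ : Q.PosDef)
    (h : ∀ ξ : m → ℂ, (star ξ ⬝ᵥ W *ᵥ ξ).re ≤ (star ξ ⬝ᵥ Q *ᵥ ξ).re) (ξ : m → ℂ) :
    (star ξ ⬝ᵥ Q *ᵥ ξ).re ≤ Real.exp (Real.log Q.det.re - Real.log W.det.re) *
      (star ξ ⬝ᵥ W *ᵥ ξ).re := by
  obtain ⟨R, hR⟩ := CStarAlgebra.nonneg_iff_eq_star_mul_self.mp hW.posSemidef.nonneg
  rw [star_eq_conjTranspose] at hR
  have hdet : W.det = (Rᴴ).det * R.det := by rw [hR, det_mul]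
  have hRdet : R.det ≠ 0 := by
    intro h
    have := hW.det_pos
    rw [hdet, h, mul_zero] at this
    exact lt_irrefl _ this
  have hRu : IsUnit R.det := isUnit_iff_ne_zero.2 hRdet
  set S := R⁻¹ with hS
  have hSR : S * R = 1 := Matrix.nonsing_inv_mul R hRu
  have hRS : R * S = 1 := Matrix.mul_nonsing_inv R hRu
  set A := Sᴴ * Q * S with hA
  have hAh : A.IsHermitian := by
    have := hQ.1
    unfold Matrix.IsHermitian at *
    rw [hA, conjTranspose_mul, conjTranspose_mul, conjTranspose_conjTranspose, this, mul_assoc]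
  have hform : ∀ (B : Matrix m m ℂ) (η : m → ℂ),
      star η ⬝ᵥ (Sᴴ * B * S) *ᵥ η = star (S *ᵥ η) ⬝ᵥ B *ᵥ (S *ᵥ η) := by
    intro B η
    rw [← mulVec_mulVec, ← mulVec_mulVec, star_mulVec, ← dotProduct_mulVec]
  have hSW : Sᴴ * W * S = 1 := by
    rw [hR, ← mul_assoc, mul_assoc (Sᴴ * Rᴴ), hRS, mul_one, ← conjTranspose_mul, hRS,
      conjTranspose_one]
  have hA1 : (A - 1).PosSemidef := by
    refine .of_dotProduct_mulVec_nonneg (hAh.sub isHermitian_one) fun η => ?_
    have h1 := h (S *ᵥ η)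
    rw [← hform, ← hform, hSW, ← hA, one_mulVec] at h1
    rw [Matrix.sub_mulVec, one_mulVec, dotProduct_sub, Complex.le_def]
    refine ⟨?_, ?_⟩
    · rw [Complex.zero_re, Complex.sub_re]
      linarith
    · have h2 : (star η ⬝ᵥ A *ᵥ η).im = 0 := by
        have := hAh.im_star_dotProduct_mulVec_self η
        exact this
      have h3 : (star η ⬝ᵥ η).im = 0 := by
        have := (isHermitian_one (n := m) (α := ℂ)).im_star_dotProduct_mulVec_self η
        rw [one_mulVec] at this
        exact this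
      rw [Complex.zero_im, Complex.sub_im, h2, h3, sub_zero]
  have key := le_det hAh hA1 (R *ᵥ ξ)
  rw [hA, hform, mulVec_mulVec, hSR, one_mulVec] at key
  have e1 : star (R *ᵥ ξ) ⬝ᵥ R *ᵥ ξ = star ξ ⬝ᵥ W *ᵥ ξ := by
    rw [hR, ← mulVec_mulVec, star_mulVec, ← dotProduct_mulVec]
  have e2 : (Sᴴ * Q * S).det.re = Real.exp (Real.log Q.det.re - Real.log W.det.re) := by
    rw [Real.exp_sub, Real.exp_log (det_re_pos hQ), Real.exp_log (det_re_pos hW)]
    have e3 : (Sᴴ * Q * S).det * W.det = Q.det := by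
      have e4 : (Sᴴ).det * (Rᴴ).det = 1 := by
        rw [← det_mul, ← conjTranspose_mul, hRS, conjTranspose_one, det_one]
      have e5 : S.det * R.det = 1 := by rw [← det_mul, hSR, det_one]
      rw [det_mul, det_mul, hdet]
      linear_combination Q.det * S.det * R.det * e4 + Q.det * e5
    have e6 : (Sᴴ * Q * S).det.re * W.det.re = Q.det.re := by
      have := congrArg Complex.re e3
      rwa [det_eq_re hW, Complex.re_mul_ofReal] at this
    rw [eq_div_iff (det_re_pos hW).ne']
    exact e6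
  rw [e1, e2] at key
  exact key

end Vale.Agent.P272.S3A
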