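import Vale.Agent.P272.S3A.Lin

/-!
P272, stage 3, step A (helper825): if a Hermitian form `W` at the centre is dominated by the circle
average of the forms `P` for all polynomial sections, then through every vector `ξ` there is a
polynomial section whose average is at most `exp (avg log det P - log det W) W(ξ)`.
-/

set_option linter.all false

open Matrix Complex MeasureTheory Metric
open scoped ComplexOrder MatrixOrder Real

namespace Vale.Agent.P272.S3A

open Vale.P272.H696

variable {m : Type*} [Fintype m] [DecidableEq m]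

/-- value of a polynomial vector -/
noncomputable def ev (p : m → Polynomial ℂ) (z : ℂ) : m → ℂ := fun i => (p i).eval z

omit [Fintype m] [DecidableEq m] in
theorem continuous_ev (p : m → Polynomial ℂ) : Continuous (ev p) :=
  continuous_pi fun i => (p i).continuous

/-- polynomial vectors with the semi-inner product given by `P` -/
def PV (m : Type*) (P : ℂ → Matrix m m ℂ) := m → Polynomial ℂ

noncomputable instance (P : ℂ → Matrix m m ℂ) : AddCommGroup (PV m P) :=
  inferInstanceAs (AddCommGroup (m → Polynomial ℂ))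

noncomputable instance (P : ℂ → Matrix m m ℂ) : Module ℂ (PV m P) :=
  inferInstanceAs (Module ℂ (m → Polynomial ℂ))

/-- the integrand -/
noncomputable def fm (P : ℂ → Matrix m m ℂ) (p q : m → Polynomial ℂ) (z : ℂ) : ℂ :=
  star (ev p z) ⬝ᵥ P z *ᵥ ev q z

theorem contOn_fm {P : ℂ → Matrix m m ℂ} (hP : ContinuousOn P (sphere (0 : ℂ) 1))
    (p q : m → Polynomial ℂ) : ContinuousOn (fm P p q) (sphere (0 : ℂ) 1) := by
  unfold fm dotProduct mulVec dotProduct
  have h1 : ∀ i, Continuous fun z => ev p z i := fun i => (p i).continuous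
  have h2 : ∀ i, Continuous fun z => ev q z i := fun i => (q i).continuous
  refine continuousOn_finset_sum _ fun i _ => ?_
  refine ContinuousOn.mul ?_ ?_
  · have : Continuous fun z => star (ev p z) i := by
      simp only [Pi.star_apply]
      exact (h1 i).star
    exact this.continuousOn
  · refine continuousOn_finset_sum _ fun j _ => ?_
    refine ContinuousOn.mul ?_ (h2 j).continuousOn
    exact (continuous_apply_apply i j).comp_continuousOn hP

theorem ci_fm {P : ℂ → Matrix m m ℂ} (hP : ContinuousOn P (sphere (0 : ℂ) 1))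
    (p q : m → Polynomial ℂ) : CircleIntegrable (fm P p q) 0 1 :=
  (contOn_fm hP p q).circleIntegrable zero_le_one

theorem re_avg {f : ℂ → ℂ} (hf : CircleIntegrable f 0 1) :
    (Real.circleAverage f 0 1).re = Real.circleAverage (fun z => (f z).re) 0 1 := by
  rw [Real.circleAverage_def, Real.circleAverage_def, Complex.smul_re, smul_eq_mul, smul_eq_mul]
  congr 1
  have := Complex.reCLM.intervalIntegral_comp_comm hf
  exact this.symm

theorem conj_avg {f : ℂ → ℂ} (hf : CircleIntegrable f 0 1) :
    (starRingEnd ℂ) (Real.circleAverage f 0 1) =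
      Real.circleAverage (fun z => (starRingEnd ℂ) (f z)) 0 1 := by
  rw [Real.circleAverage_def, Real.circleAverage_def, Complex.real_smul, Complex.real_smul,
    map_mul, Complex.conj_ofReal]
  congr 1
  have := Complex.conjCLE.toContinuousLinearMap.intervalIntegral_comp_comm hf
  exact this.symm

theorem fm_conj {P : ℂ → Matrix m m ℂ} {z : ℂ} (h : (P z).IsHermitian) (p q : m → Polynomial ℂ) :
    (starRingEnd ℂ) (fm P q p z) = fm P p q z := by
  unfold fm
  rw [starRingEnd_apply, ← Matrix.star_dotProduct_star, star_star, star_mulVec, h.eq,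
    ← dotProduct_mulVec]

/-- the semi-inner product -/
@[reducible] noncomputable def core {P : ℂ → Matrix m m ℂ} (hP : ContinuousOn P (sphere (0 : ℂ) 1))
    (hpd : ∀ z ∈ sphere (0 : ℂ) 1, (P z).PosDef) : PreInnerProductSpace.Core ℂ (PV m P) where
  inner p q := Real.circleAverage (fm P p q) 0 1
  conj_inner_symm p q := by
    show (starRingEnd ℂ) (Real.circleAverage (fm P q p) 0 1) = Real.circleAverage (fm P p q) 0 1
    rw [conj_avg (ci_fm hP q p)]
    refine Real.circleAverage_congr_sphere fun z hz => ?_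
    rw [abs_one] at hz
    exact fm_conj (hpd z hz).1 p q
  re_inner_nonneg p := by
    show 0 ≤ (Real.circleAverage (fm P p p) 0 1).re
    rw [re_avg (ci_fm hP p p)]
    refine Real.circleAverage_nonneg_of_nonneg fun z hz => ?_
    rw [abs_one] at hz
    exact (Complex.le_def.1 ((hpd z hz).posSemidef.dotProduct_mulVec_nonneg (ev p z))).1
  add_left p q r := by
    show Real.circleAverage (fm P (p + q) r) 0 1 = _
    have e : fm P (p + q) r = fun z => fm P p r z + fm P q r z := by
      funext z
      unfold fm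
      have : ev (p + q) z = ev p z + ev q z := by
        funext i
        exact Polynomial.eval_add
      rw [this, star_add, add_dotProduct]
    rw [e, Real.circleAverage_fun_add (ci_fm hP p r) (ci_fm hP q r)]
  smul_left p q c := by
    show Real.circleAverage (fm P (c • p) q) 0 1 = _
    have e : fm P (c • p) q = fun z => (starRingEnd ℂ) c • fm P p q z := by
      funext z
      unfold fm
      have : ev (c • p) z = c • ev p z := by
        funext i
        exact Polynomial.eval_smul _ _ _
      rw [this, star_smul, smul_dotProduct]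
      rfl
    rw [e, Real.circleAverage_fun_smul]
    rfl

/-- constants -/
noncomputable def cst (P : ℂ → Matrix m m ℂ) : (m → ℂ) →ₗ[ℂ] PV m P where
  toFun ξ := fun i => Polynomial.C (ξ i)
  map_add' ξ η := funext fun i => Polynomial.C_add
  map_smul' c ξ := funext fun i => by
    show Polynomial.C (c * ξ i) = c • Polynomial.C (ξ i)
    rw [Polynomial.smul_C, smul_eq_mul]

/-- polynomial vectors which vanish at `0` -/
noncomputable def vanish (P : ℂ → Matrix m m ℂ) : Submodule ℂ (PV m P) where
  carrier := {p | ∀ i, Polynomial.eval 0 (p i) = 0}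
  zero_mem' := fun i => Polynomial.eval_zero
  add_mem' := fun {p q} hp hq i => by
    show Polynomial.eval 0 (p i + q i) = 0
    rw [Polynomial.eval_add, hp i, hq i, add_zero]
  smul_mem' := fun c p hp i => by
    show Polynomial.eval 0 (c • p i) = 0
    rw [Polynomial.eval_smul, hp i, smul_zero]

/-- the minimal form -/
theorem exists_form {P : ℂ → Matrix m m ℂ} (hP : ContinuousOn P (sphere (0 : ℂ) 1))
    (hpd : ∀ z ∈ sphere (0 : ℂ) 1, (P z).PosDef) :
    ∃ Q : Matrix m m ℂ, Q.PosSemidef ∧
      (∀ p : m → Polynomial ℂ, (star (ev p 0) ⬝ᵥ Q *ᵥ ev p 0).re ≤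
        Real.circleAverage (fun z => (fm P p p z).re) 0 1) ∧
      ∀ ξ : m → ℂ, ∀ ε : ℝ, 0 < ε → ∃ p : m → Polynomial ℂ, ev p 0 = ξ ∧
        Real.circleAverage (fun z => (fm P p p z).re) 0 1 ≤ (star ξ ⬝ᵥ Q *ᵥ ξ).re + ε := by
  letI c := core hP hpd
  letI : SeminormedAddCommGroup (PV m P) := InnerProductSpace.Core.toSeminormedAddCommGroup (c := c)
  letI : InnerProductSpace ℂ (PV m P) := InnerProductSpace.ofCore c
  have hnorm : ∀ p : PV m P, ‖p‖ ^ 2 = Real.circleAverage (fun z => (fm P p p z).re) 0 1 := by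
    intro p
    rw [← re_avg (ci_fm hP p p)]
    exact norm_sq_eq_re_inner (𝕜 := ℂ) p
  obtain ⟨Q, hQ, h1, h2⟩ := quot_form (vanish P) (cst P)
  refine ⟨Q, hQ, fun p => ?_, fun ξ ε hε => ?_⟩
  · let p' : PV m P := p
    have hv : p' - cst P (ev p 0) ∈ vanish P := by
      intro i
      show Polynomial.eval 0 (p i - Polynomial.C (ev p 0 i)) = 0
      rw [Polynomial.eval_sub, Polynomial.eval_C]
      exact sub_self _
    have h3 := h1 (ev p 0) _ hv
    rw [add_sub_cancel, hnorm] at h3
    exact h3
  · obtain ⟨v, hv, hle⟩ := h2 ξ ε hε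
    refine ⟨cst P ξ + v, ?_, ?_⟩
    · funext i
      show Polynomial.eval 0 (Polynomial.C (ξ i) + v i) = ξ i
      rw [Polynomial.eval_add, Polynomial.eval_C, hv i, add_zero]
    · rw [hnorm] at hle
      exact hle

/-- **Step A**, algebraic form. -/
theorem stepA {P : ℂ → Matrix m m ℂ} (hP : ContinuousOn P (sphere (0 : ℂ) 1))
    (hpd : ∀ z ∈ sphere (0 : ℂ) 1, (P z).PosDef) {W : Matrix m m ℂ} (hW : W.PosDef)
    (H : ∀ p : m → Polynomial ℂ,
      (star (fun i => (p i).eval 0) ⬝ᵥ W *ᵥ (fun i => (p i).eval 0)).re ≤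
        Real.circleAverage (fun z => (star (fun i => (p i).eval z) ⬝ᵥ
          P z *ᵥ (fun i => (p i).eval z)).re) 0 1)
    (ξ : m → ℂ) {ε : ℝ} (hε : 0 < ε) :
    ∃ p : m → Polynomial ℂ, (∀ i, (p i).eval 0 = ξ i) ∧
      Real.circleAverage (fun z => (star (fun i => (p i).eval z) ⬝ᵥ
          P z *ᵥ (fun i => (p i).eval z)).re) 0 1 ≤
        (Real.exp (Real.circleAverage (fun z => Real.log (P z).det.re) 0 1 -
          Real.log W.det.re) + ε) * (star ξ ⬝ᵥ W *ᵥ ξ).re := by
  obtain ⟨Q, hQ, h1, h2⟩ := exists_form hP hpd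
  have hWQ : ∀ η : m → ℂ, (star η ⬝ᵥ W *ᵥ η).re ≤ (star η ⬝ᵥ Q *ᵥ η).re := by
    intro η
    refine le_of_forall_pos_le_add fun δ hδ => ?_
    obtain ⟨p, hp, hle⟩ := h2 η δ hδ
    have h3 := H p
    have h4 : (fun i => (p i).eval 0) = η := hp
    rw [h4] at h3
    exact h3.trans hle
  have hQpd : Q.PosDef := by
    refine .of_dotProduct_mulVec_pos hQ.1 fun x hx => ?_
    have h3 := hW.dotProduct_mulVec_pos hx
    have h4 := hQ.dotProduct_mulVec_nonneg x
    rw [Complex.le_def] at h4
    rw [Complex.lt_def] at h3 ⊢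
    exact ⟨lt_of_lt_of_le h3.1 (hWQ x), h4.2⟩
  have hsz := matrix_szego_circle hP hpd hQpd one_pos (fun p => by
    rw [one_mul]
    exact h1 p)
  rw [Real.log_one, mul_zero, zero_add] at hsz
  rcases eq_or_ne ξ 0 with rfl | hξ
  · refine ⟨0, fun i => by simp, ?_⟩
    have e : (fun i : m => Polynomial.eval (0 : ℂ) ((0 : m → Polynomial ℂ) i)) = 0 := by
      funext i
      simp
    have e' : ∀ z : ℂ, (fun i : m => Polynomial.eval z ((0 : m → Polynomial ℂ) i)) = 0 := by
      intro z
      funext i
      simp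
    simp only [e', star_zero, zero_dotProduct, mulVec_zero, Complex.zero_re, mul_zero]
    rw [Real.circleAverage_const]
  · have hpos : 0 < (star ξ ⬝ᵥ W *ᵥ ξ).re := by
      have h3 := hW.dotProduct_mulVec_pos hξ
      rw [Complex.lt_def] at h3
      exact h3.1
    obtain ⟨p, hp, hle⟩ := h2 ξ (ε * (star ξ ⬝ᵥ W *ᵥ ξ).re) (mul_pos hε hpos)
    refine ⟨p, fun i => congrFun hp i, hle.trans ?_⟩
    have h5 := form_le hW hQpd hWQ ξ
    have h6 : Real.exp (Real.log Q.det.re - Real.log W.det.re) ≤
        Real.exp (Real.circleAverage (fun z => Real.log (P z).det.re) 0 1 -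
          Real.log W.det.re) := Real.exp_le_exp.2 (by linarith)
    have h7 := mul_le_mul_of_nonneg_right h6 hpos.le
    rw [add_mul]
    linarith

end Vale.Agent.P272.S3A
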